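import Vale.Agent.P224.OT.CstN
import Vale.Agent.P224.RIG.Least

/-!
Numerical facts for dimension seven.
-/

namespace Vale.Agent.P224.PO.M7

/-- the flux against the volume ratio -/
theorem flux_eq : (768 : ℝ) / 343 * √3 = √7 * (768 / 343 * √(3 / 7)) := by
  have h : √(3 : ℝ) = √7 * √(3 / 7) := by
    rw [← Real.sqrt_mul (by norm_num)]
    norm_num
  rw [h]
  ring

/-- upper bound of the volume ratio -/
theorem a_le : (768 : ℝ) / 343 * √(3 / 7) ≤ 14658134668 / 10000000000 := by
  have h : √(3 / 7 : ℝ) ≤ 14658134668 / 10000000000 * (343 / 768) := by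
    rw [Real.sqrt_le_left (by norm_num)]
    norm_num
  linarith

/-- lower bound of the volume ratio -/
theorem a_ge : (14658134667 : ℝ) / 10000000000 ≤ 768 / 343 * √(3 / 7) := by
  have h : (14658134667 : ℝ) / 10000000000 * (343 / 768) ≤ √(3 / 7) := by
    refine Real.le_sqrt_of_sq_le ?_
    norm_num
  linarith

/-- the volume ratio is at least `6 / 5` -/
theorem a_ge' : (6 : ℝ) / 5 ≤ 768 / 343 * √(3 / 7) := by
  have := a_ge
  linarith

/-- the volume ratio is less than two -/
theorem a_lt_two : (768 : ℝ) / 343 * √(3 / 7) < 2 := by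
  have := a_le
  linarith

/-- the least Clifford volume in dimension seven -/
theorem least_eq : leastClifford 7 = 768 / 343 * √(3 / 7) * sphereVol 7 := by
  rw [RIG.leastClifford_eq (m := 7) (by norm_num)]
  have h := clifford_odd (k := 3)
  rw [OT.oddRatio_three] at h
  simpa using h

end Vale.Agent.P224.PO.M7
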