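import Vale.Agent.P224.PO.CoreK
import Vale.Agent.P224.PO.M7.Num
import Vale.Agent.P224.S7.ZeroD
import Vale.Agent.P224.S7.ZeroE
import Vale.Agent.P224.SO.One7
import Vale.Agent.P224.SO.Stab7C
import Vale.Agent.P224.S7.Z7F
import Vale.Agent.P224.PO.R7b.Main
import Vale.Agent.P224.PO.R7s.Law

/-!
The sharp volume bound in dimension seven, with the case of equality.
-/

namespace Vale.Agent.P224.PO.M7

open MeasureTheory Set Filter Function Module Vale.Agent.P224 Vale.Agent.P224.UE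
  Vale.Agent.P224.S7
open scoped Topology RealInnerProductSpace ENNReal ContDiff Manifold

set_option linter.unusedSectionVars false

lemma gam_pos : 0 < gamD := by linarith [gamD_bd.1]

lemma rho_pos : 0 < rhoD := by linarith [rhoD_bd.1]

lemma kap_nonneg : 0 ≤ kapD := by
  unfold kapD
  norm_num

lemma sq_r : √(12 : ℝ) ^ 2 = 12 := Real.sq_sqrt (by norm_num)

lemma num1 : (((7 : ℕ) : ℝ) + 1) ^ 2 * gamD * (13 / 100000) ≤ 38 / 1000 * rhoD := by
  push_cast
  linarith [gamD_bd.2, rhoD_bd.1]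

lemma num2 : ((((7 : ℕ) : ℝ) + 1) ^ 2 * (139 / 100) * gamD) ^ 2 * (13 / 100000) ≤ (52 / 10 * rhoD) ^ 2 := by
  push_cast
  have h1 : (((7 : ℝ) + 1) ^ 2 * (139 / 100) * gamD) ^ 2
      ≤ (((7 : ℝ) + 1) ^ 2 * (139 / 100) * (57709 / 100000)) ^ 2 :=
    pow_le_pow_left₀ (by linarith [gam_pos]) (by linarith [gamD_bd.2]) 2
  have h2 : ((52 / 10 : ℝ) * (138136 / 1000000)) ^ 2 ≤ (52 / 10 * rhoD) ^ 2 :=
    pow_le_pow_left₀ (by norm_num) (by linarith [rhoD_bd.1]) 2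
  refine le_trans ?_ h2
  refine le_trans (mul_le_mul_of_nonneg_right h1 (by norm_num)) ?_
  norm_num

/-- the first stable scalar inequality -/
lemma st1 (d x : Fin 9 → ℝ) (h : ∀ i, 6 * x i ^ 2 ≤ d i - d i ^ 2) (h1 : ∑ i, d i = 1)
    (h0 : ∑ i, x i = 0) (hv : ∑ i, d i * x i ≤ 0)
    (hS : 14 / 5 + (34 * ∑ i, d i ^ 2 - 48 * ∑ i, x i ^ 2 - 7 * ∑ i, d i * x i)
      + ∑ i, (4 * (d i - d i ^ 2 - 6 * x i ^ 2) + 7 / 100 * ((1 - 9 * d i - 2 * x i) ^ 2
        + 49 / 3 * (d i - d i ^ 2 - 6 * x i ^ 2))) < 38 / 1000) :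
    (SO.Rt (1 / 20) x).card = 5 ∧
    52 / 10 * ∑ i, (if 1 / 20 ≤ x i then 29 / 32 * d i - 3 / 2 * x i + 3 / 32
        else 5 / 6 * d i + 2 * x i + 1 / 6)
      ≤ 14 / 5 + (34 * ∑ i, d i ^ 2 - 48 * ∑ i, x i ^ 2 - 7 * ∑ i, d i * x i)
        + ∑ i, (4 * (d i - d i ^ 2 - 6 * x i ^ 2) + 7 / 100 * ((1 - 9 * d i - 2 * x i) ^ 2
          + 49 / 3 * (d i - d i ^ 2 - 6 * x i ^ 2))) := by
  have q := SO.M7.stabT 1 zero_le_one one_le_two d x h h1 h0 hv hS
  simp only [one_mul] at q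
  exact q

/-- the second stable scalar inequality -/
lemma st2 (d x : Fin 9 → ℝ) (h : ∀ i, 6 * x i ^ 2 ≤ d i - d i ^ 2) (h1 : ∑ i, d i = 1)
    (h0 : ∑ i, x i = 0) (hv : ∑ i, d i * x i ≤ 0)
    (hS : 14 / 5 + (34 * ∑ i, d i ^ 2 - 48 * ∑ i, x i ^ 2 - 7 * ∑ i, d i * x i)
      + ∑ i, 4 * (d i - d i ^ 2 - 6 * x i ^ 2) < 24 / 1000) :
    (SO.Rt (1 / 20) x).card = 5 ∧
    385 / 100 * ∑ i, (if 1 / 20 ≤ x i then 29 / 32 * d i - 3 / 2 * x i + 3 / 32
        else 5 / 6 * d i + 2 * x i + 1 / 6)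
      ≤ 14 / 5 + (34 * ∑ i, d i ^ 2 - 48 * ∑ i, x i ^ 2 - 7 * ∑ i, d i * x i)
        + ∑ i, 4 * (d i - d i ^ 2 - 6 * x i ^ 2) := by
  have q := SO.M7.stabS 1 zero_le_one one_le_two d x h h1 h0 hv hS
  simp only [one_mul] at q
  exact q

section

variable {V W M : Type*} [NormedAddCommGroup V] [InnerProductSpace ℝ V] [FiniteDimensional ℝ V]
  [NormedAddCommGroup W] [InnerProductSpace ℝ W] [FiniteDimensional ℝ W]
  [TopologicalSpace M] [ChartedSpace V M]
  [MeasurableSpace V] [BorelSpace V] [MeasurableSpace M] [BorelSpace M]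
  [IsManifold 𝓘(ℝ, V) ∞ M] [CompactSpace M] [T2Space M] [ConnectedSpace M]
  [MeasurableSpace W] [BorelSpace W]

/-- **Dimension seven**: at most the Clifford volume forces equality and linearity. -/
theorem core (hV : finrank ℝ V = 7) (hW : finrank ℝ W = finrank ℝ V + 2)
    {F : M → W} (hF : SphImm V F) (hmin : ∀ x n, IsUnitNormal V F x n → meanCurv V F x n = 0)
    (hng : ¬ ∃ a : W, a ≠ 0 ∧ ∀ x, ⟪F x, a⟫ = 0)
    (hle : (volM V F).real univ ≤ 768 / 343 * √(3 / 7) * sphereVol 7) :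
    (volM V F).real univ = 768 / 343 * √(3 / 7) * sphereVol 7 ∧ Injective F ∧
      ∃ (N : M → W) (b : OrthonormalBasis (Fin (7 + 2)) ℝ W) (S : Finset (Fin (7 + 2))),
        ContMDiff 𝓘(ℝ, V) 𝓘(ℝ, W) ∞ N ∧ (∀ x, IsUnitNormal V F x (N x)) ∧ S.card = 5 ∧
        ∀ x, N x = ∑ i, ((if i ∈ S then √12 / 4 else -(1 / (√12 / 4))) * ⟪F x, b i⟫) • b i := by
  have hfin : IsFiniteMeasure (volM V F) := isFiniteMeasure_volM hF
  have hne : Nonempty M := inferInstance
  have hΘ : 9999 / 10000 * (768 / 343 * √(3 / 7)) * sphereVol 7 ≤ (volM V F).real univ := by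
    have h := R7b.main hV hW hF hmin hng
    rw [least_eq] at h
    have h2 := (ENNReal.ofReal_le_iff_le_toReal (measure_ne_top _ _)).1 h
    have e : (volM V F).real univ = ((volM V F) univ).toReal := rfl
    rw [e]
    linarith
  have hr0 : (0 : ℝ) < √12 := by positivity
  have ha2 : (√(12 : ℝ) / 4) ^ 2 = 3 / 4 := by
    rw [div_pow, sq_r]
    norm_num
  have hlr : ∀ Θ : ℝ, 9999 / 10000 * (768 / 343 * √(3 / 7)) ≤ Θ → 916 / 625 ≤ Θ := by
    intro Θ h
    linarith [a_ge]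
  refine core_K (m := 7) (h := 3) (C := 768 / 343 * √(3 / 7)) (Θ1 := 9999 / 10000 * (768 / 343 * √(3 / 7)))
    (α := √12 / 4) (r := √12) (w := 3 / 4) (kr := √12 / 12) (T0 := 14 / 5) (k0 := -(147 / 40))
    (k1 := 34) (B := 48) (c := 7) (q := 6) (g1 := 9) (g' := 49 / 3)
    (a2 := 29 / 32) (b2 := 3 / 2) (c2 := 3 / 32) (a1 := 5 / 6) (c1 := 1 / 6)
    (cc := (7 / 24) * √12) (cd := 5) (lamu := 4) (lamv := 7 / 100)
    (lams := 4) (t1 := 38 / 1000) (κ1 := 52 / 10) (t2 := 24 / 1000)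
    (κ2 := 385 / 100) (Z := 1 / 20) (Z' := 1 / 20)
    (l := Z7.lT) (Ro := RoT (√12) ll kapD Z7.sT)
    (R0 := R00 (√12) ll kapD) (c0 := √7) (ρ := rhoD) (κ := kapD) (γ := gamD)
    (lu := 7 / 50) (lv := 49 / 5000) (cs := 81 / 80) (ρ2 := 570967815 / 4294967296)
    (κs := 41195607171 / 17179869184) (lus := 2290431333 / 17179869184)
    (b0 := 1) (b1 := 4803131789 / 8589934592) (b2' := -(247614799967 / 68719476736)) (b3 :=
    339939712113 / 68719476736) (b4 := -(219275108889 / 68719476736)) (b5 := -(37772481747 /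
    34359738368)) (b6 := 93365538747 / 68719476736) (b7 := 9929464781 / 34359738368) (b8 := 0)
    (l2 := rlH 13194139533312 R7s.rows)
    (u0 := 13 / 100000) (gs := 199 / 3125000 - 3049 / 25000 * (13 / 100000) + 25929 / 100000 * (13 / 100000) ^ 2) (K := 139 / 100)
    (by norm_num) (by norm_num) hV hW hF hmin hng a_lt_two ?_ hΘ (by positivity) (by
      rw [ha2]) hr0 (by push_cast; ring) ?_ (by push_cast; norm_num)
    (by push_cast; norm_num) (by push_cast; norm_num) ?_ (by push_cast; norm_num)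
    (by norm_num) (by norm_num) (by push_cast; norm_num) (by norm_num) (by push_cast; norm_num)
    ?_ (by norm_num) (by norm_num) st1 st2
    Z7.reg_lT Z7.ok_lT Z7.w_lT
    (fun N hN T hT => null_RoT hN _ _ _ _ ⟨hT.1.le, hT.2⟩)
    (fun N hN => null_R00 hN _ _ _) Z7.hposR_lT (by positivity) rho_pos
    kap_nonneg gam_pos ?_ ?_ ?_ ?_
    (Z7.flux_lT.trans flux_eq) ?_ (by norm_num) (by norm_num)
    (by push_cast; norm_num) (by push_cast; norm_num) R7s.rows_ok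
    (fun e x N y w he hx hN hy hw hxN hyw hs => R7s.hpos_s e x N y w he hx hN hy hw hxN hyw hs)
    (by norm_num) (fun Θ u r h1 h2 hu hT hr1 hr2 => R7s.hlaw_g (hlr Θ h1)
      (h2.trans (a_le.trans (by norm_num))) (by norm_num) (by norm_num) hu hT hr1 hr2)
    (by norm_num)
    (fun N hN b S hS => SO.One7.one_norm hN (sp_of_hng hng) (by positivity) ha2 b S hS)
    num1 num2 (by push_cast; norm_num) (by push_cast; norm_num) hle
  · linarith [a_ge]
  · -- kr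
    have h1 := sq_r
    field_simp
    linarith
  · -- g'
    rw [sq_r]
    push_cast
    norm_num
  · -- cc
    push_cast
    nlinarith [sq_r]
  · push_cast
    linarith [rhoD_bd.2]
  · linarith [rhoD_bd.2]
  · rw [sq_r]
    push_cast
    linarith [rhoD_bd.1]
  · intro x N y w hx hN hy hw hxN hyw
    exact Z7.h0_lT x N y w hx hN hy hw hxN hyw
  · -- cs
    have h1 : (3464 / 1000 : ℝ) ≤ √12 := Real.le_sqrt_of_sq_le (by norm_num)
    push_cast
    linarith

end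

end Vale.Agent.P224.PO.M7
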