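import Vale.Agent.P224.POS.Psd

/-!
Certificate data: Gram matrices 8,9,10,11,12,13 and their positive semidefiniteness.
-/

namespace Vale.Agent.P224.PO.M7

open Vale.Agent.P224.POS

noncomputable section

/-- Gram matrix of block 8 ((u1-E)*sca00), rows of the lower triangle -/
def G8 : List (List Int) := rowsZ 524288 [
  269998,
  198449539074,
  115889704458801784,
  45205826005884618408454] 0

/-- witness of block 8 -/
def W8 : List (List Nat) := rowsN 1024 [
  591,
  708833,
  773134093,
  646719172103] 0

set_option maxRecDepth 100000 in
theorem psd8 : psdChk 512 1 336 W8 G8 = true := by decide +kernel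

/-- Gram matrix of block 9 ((u1-E)*sca10), rows of the lower triangle -/
def G9 : List (List Int) := rowsZ 1048576 [
  535040,
  841214289716,
  1143652796294800568] 0

/-- witness of block 9 -/
def W9 : List (List Nat) := rowsN 2048 [
  1117,
  2742876,
  4979649989] 0

set_option maxRecDepth 100000 in
theorem psd9 : psdChk 1024 1 524 W9 G9 = true := by decide +kernel

/-- Gram matrix of block 10 ((u1-E)*sca11), rows of the lower triangle -/
def G10 : List (List Int) := rowsZ 33554432 [
  16874824,
  711806758158618,
  29271092094154050189098] 0

/-- witness of block 10 -/
def W10 : List (List Nat) := rowsN 8192 [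
  4389,
  42625283,
  313011664910] 0

set_option maxRecDepth 100000 in
theorem psd10 : psdChk 4096 1 2948 W10 G10 = true := by decide +kernel

/-- Gram matrix of block 11 (r(u1-E)*sca00), rows of the lower triangle -/
def G11 : List (List Int) := rowsZ 1048576 [
  552316,
  973701810168,
  1005960956910060312,
  691914836453435705394720] 0

/-- witness of block 11 -/
def W11 : List (List Nat) := rowsN 2048 [
  1186,
  2554286,
  5424848382,
  9658351627274] 0

set_option maxRecDepth 100000 in
theorem psd11 : psdChk 1024 1 354 W11 G11 = true := by decide +kernel

/-- Gram matrix of block 12 (r(u1-E)*sca10), rows of the lower triangle -/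
def G12 : List (List Int) := rowsZ 8388608 [
  4335648,
  56503939060040,
  487913664064759809730] 0

/-- witness of block 12 -/
def W12 : List (List Nat) := rowsN 4096 [
  2422,
  10338831,
  38005644714] 0

set_option maxRecDepth 100000 in
theorem psd12 : psdChk 2048 1 355 W12 G12 = true := by decide +kernel

/-- Gram matrix of block 13 (r(u1-E)*sca11), rows of the lower triangle -/
def G13 : List (List Int) := rowsZ 134217728 [
  68668072,
  14271567035886476,
  2131363690897321424636104] 0

/-- witness of block 13 -/
def W13 : List (List Nat) := rowsN 16384 [
  9428,
  166381767,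
  2374925072434] 0

set_option maxRecDepth 100000 in
theorem psd13 : psdChk 8192 1 8100 W13 G13 = true := by decide +kernel

end

end Vale.Agent.P224.PO.M7
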