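import Vale.Agent.P224.PO.RowsO

/-!
Certificate data in dimension 7: value terms and rows.
-/

namespace Vale.Agent.P224.PO.M7

open Vale.Agent.P224.UE Vale.Agent.P224.POS Vale.Agent.P224.PO

noncomputable section

/-- the rows: integer coefficient and term (family, e, i, j, d, k, l) -/
def rows : List (Int × HTerm) := [
  (-10657304, ⟨0, -7, 0, 0, 0, 0, 0⟩),
  (-48615560, ⟨0, -5, 0, 0, 0, 0, 0⟩),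
  (-15785392, ⟨0, -4, 0, 0, 0, 0, 0⟩),
  (-93282952, ⟨0, -3, 0, 0, 0, 0, 0⟩),
  (3421040, ⟨0, -2, 0, 0, 0, 0, 0⟩),
  (-161571872, ⟨0, -1, 0, 0, 0, 0, 0⟩),
  (71598576, ⟨0, 0, 0, 0, 0, 0, 0⟩),
  (5119072, ⟨0, -7, 2, 0, 0, 0, 0⟩),
  (-513184, ⟨0, -6, 2, 0, 0, 0, 0⟩),
  (32777248, ⟨0, -5, 2, 0, 0, 0, 0⟩),
  (1462104, ⟨0, -4, 2, 0, 0, 0, 0⟩),
  (-9578184, ⟨1, -5, 1, 0, 0, 0, 0⟩),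
  (-41253240, ⟨1, -4, 1, 0, 0, 0, 0⟩),
  (82010376, ⟨1, -3, 1, 0, 0, 0, 0⟩),
  (-72421552, ⟨1, -2, 1, 0, 0, 0, 0⟩),
  (10205160, ⟨3, -7, 0, 0, 0, 0, 0⟩),
  (25029200, ⟨3, -5, 0, 0, 0, 0, 0⟩),
  (-17255560, ⟨3, -4, 0, 0, 0, 0, 0⟩),
  (69580896, ⟨3, -3, 0, 0, 0, 0, 0⟩),
  (42770784, ⟨3, -2, 0, 0, 0, 0, 0⟩),
  (-5323752, ⟨3, -7, 2, 0, 0, 0, 0⟩),
  (-1979768, ⟨3, -6, 2, 0, 0, 0, 0⟩),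
  (18681712, ⟨0, -7, 0, 0, 0, 1, 0⟩),
  (25687704, ⟨0, -6, 0, 0, 0, 1, 0⟩),
  (345238376, ⟨0, -5, 0, 0, 0, 1, 0⟩),
  (-414722616, ⟨0, -4, 0, 0, 0, 1, 0⟩),
  (335637736, ⟨0, -3, 0, 0, 0, 1, 0⟩),
  (185110072, ⟨0, -2, 0, 0, 0, 1, 0⟩),
  (359788128, ⟨0, -1, 0, 0, 0, 1, 0⟩),
  (-150392704, ⟨0, 0, 0, 0, 0, 1, 0⟩),
  (-546176008, ⟨0, -7, 1, 0, 1, 0, 0⟩),
  (511207872, ⟨0, -6, 1, 0, 1, 0, 0⟩),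
  (-371089768, ⟨0, -5, 1, 0, 1, 0, 0⟩),
  (-5424296360, ⟨0, -4, 1, 0, 1, 0, 0⟩),
  (14646054976, ⟨0, -3, 1, 0, 1, 0, 0⟩),
  (-55344266376, ⟨0, -2, 1, 0, 1, 0, 0⟩),
  (38119903920, ⟨0, -1, 1, 0, 1, 0, 0⟩),
  (76797504, ⟨0, -7, 1, 1, 0, 0, 0⟩),
  (-460918864, ⟨0, -6, 1, 1, 0, 0, 0⟩),
  (131671568, ⟨0, -5, 1, 1, 0, 0, 0⟩),
  (1614373488, ⟨0, -4, 1, 1, 0, 0, 0⟩),
  (22844080, ⟨1, -5, 1, 0, 0, 1, 0⟩),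
  (36877904, ⟨1, -4, 1, 0, 0, 1, 0⟩),
  (-109748912, ⟨1, -3, 1, 0, 0, 1, 0⟩),
  (76171816, ⟨1, -2, 1, 0, 0, 1, 0⟩),
  (-43857128, ⟨1, -6, 0, 0, 1, 0, 0⟩),
  (16336544, ⟨1, -5, 0, 0, 1, 0, 0⟩),
  (1683047576, ⟨1, -4, 0, 0, 1, 0, 0⟩),
  (-11796193136, ⟨1, -3, 0, 0, 1, 0, 0⟩),
  (42304321752, ⟨1, -2, 0, 0, 1, 0, 0⟩),
  (-9013086096, ⟨1, -1, 0, 0, 1, 0, 0⟩),
  (-109590905424, ⟨1, 0, 0, 0, 1, 0, 0⟩),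
  (76239807840, ⟨1, 1, 0, 0, 1, 0, 0⟩),
  (4320232, ⟨1, -7, 2, 0, 1, 0, 0⟩),
  (-3377080, ⟨1, -6, 2, 0, 1, 0, 0⟩),
  (-60382336, ⟨1, -5, 2, 0, 1, 0, 0⟩),
  (18178048, ⟨1, -4, 2, 0, 1, 0, 0⟩),
  (43857128, ⟨1, -6, 0, 1, 0, 0, 0⟩),
  (735169064, ⟨1, -5, 0, 1, 0, 0, 0⟩),
  (-1963627960, ⟨1, -4, 0, 1, 0, 0, 0⟩),
  (-1574492024, ⟨1, -3, 0, 1, 0, 0, 0⟩),
  (5423472320, ⟨1, -2, 0, 1, 0, 0, 0⟩),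
  (-931161952, ⟨1, -1, 0, 1, 0, 0, 0⟩),
  (57011472, ⟨1, 0, 0, 1, 0, 0, 0⟩),
  (-3253824, ⟨1, -7, 2, 1, 0, 0, 0⟩),
  (-6498464, ⟨1, -6, 2, 1, 0, 0, 0⟩),
  (55644848, ⟨1, -5, 2, 1, 0, 0, 0⟩),
  (-52658088, ⟨1, -4, 2, 1, 0, 0, 0⟩),
  (-22137696, ⟨3, -7, 0, 0, 0, 1, 0⟩),
  (25687704, ⟨3, -6, 0, 0, 0, 1, 0⟩),
  (201255600, ⟨3, -5, 0, 0, 0, 1, 0⟩),
  (-410460736, ⟨3, -4, 0, 0, 0, 1, 0⟩),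
  (9896600, ⟨3, -3, 0, 0, 0, 1, 0⟩),
  (137970560, ⟨3, -2, 0, 0, 0, 1, 0⟩),
  (-55863640, ⟨3, -7, 1, 0, 1, 0, 0⟩),
  (461119232, ⟨3, -6, 1, 0, 1, 0, 0⟩),
  (-924971320, ⟨3, -5, 1, 0, 1, 0, 0⟩),
  (511658896, ⟨3, -4, 1, 0, 1, 0, 0⟩),
  (524947640, ⟨3, -7, 1, 1, 0, 0, 0⟩),
  (-553411824, ⟨3, -6, 1, 1, 0, 0, 0⟩),
  (-635317816, ⟨3, -5, 1, 1, 0, 0, 0⟩),
  (3543129744, ⟨3, -4, 1, 1, 0, 0, 0⟩),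
  (-1270663464, ⟨3, -3, 1, 1, 0, 0, 0⟩),
  (18169424, ⟨5, -6, 1, 0, 0, 0, 0⟩),
  (218726032, ⟨5, -5, 1, 0, 0, 0, 0⟩),
  (-436388904, ⟨5, -4, 1, 0, 0, 0, 0⟩),
  (-61135200, ⟨5, -3, 1, 0, 0, 0, 0⟩),
  (263876928, ⟨5, -2, 1, 0, 0, 0, 0⟩),
  (-18725336, ⟨0, -7, 0, 0, 0, 0, 1⟩),
  (-188534808, ⟨0, -5, 0, 0, 0, 0, 1⟩),
  (-66823848, ⟨0, -4, 0, 0, 0, 0, 1⟩),
  (2276888992, ⟨0, -3, 0, 0, 0, 0, 1⟩),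
  (-5656753872, ⟨0, -2, 0, 0, 0, 0, 1⟩),
  (160944, ⟨0, -7, 0, 0, 0, 2, 0⟩),
  (81681432, ⟨0, -5, 0, 0, 0, 2, 0⟩),
  (284093936, ⟨0, -4, 0, 0, 0, 2, 0⟩),
  (-3010993776, ⟨0, -3, 0, 0, 0, 2, 0⟩),
  (6443801224, ⟨0, -2, 0, 0, 0, 2, 0⟩),
  (-816209912, ⟨0, -1, 0, 0, 0, 2, 0⟩),
  (360929800, ⟨0, 0, 0, 0, 0, 2, 0⟩),
  (-288100008, ⟨0, -7, 0, 0, 2, 0, 0⟩),
  (1140012216, ⟨0, -6, 0, 0, 2, 0, 0⟩),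
  (-1916243504, ⟨0, -5, 0, 0, 2, 0, 0⟩),
  (7243900328, ⟨0, -4, 0, 0, 2, 0, 0⟩),
  (47267777760, ⟨0, -2, 0, 0, 2, 0, 0⟩),
  (-8342668208, ⟨0, -1, 0, 0, 2, 0, 0⟩),
  (4186959000, ⟨0, 0, 0, 0, 2, 0, 0⟩),
  (-34929720, ⟨0, -7, 0, 1, 1, 0, 0⟩),
  (-768605040, ⟨0, -6, 0, 1, 1, 0, 0⟩),
  (1764065632, ⟨0, -5, 0, 1, 1, 0, 0⟩),
  (-4836234424, ⟨0, -4, 0, 1, 1, 0, 0⟩),
  (2596160336, ⟨0, -3, 0, 1, 1, 0, 0⟩),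
  (-7541551640, ⟨0, -2, 0, 1, 1, 0, 0⟩),
  (-45346880880, ⟨0, -1, 0, 1, 1, 0, 0⟩),
  (2587463816, ⟨0, 0, 0, 1, 1, 0, 0⟩),
  (-371407176, ⟨0, -6, 0, 2, 0, 0, 0⟩),
  (-2313448592, ⟨0, -5, 0, 2, 0, 0, 0⟩),
  (-18472184472, ⟨0, -3, 0, 2, 0, 0, 0⟩),
  (558376, ⟨1, -5, 1, 0, 0, 2, 0⟩),
  (-69441288, ⟨1, -4, 1, 0, 0, 2, 0⟩),
  (207432736, ⟨1, -3, 1, 0, 0, 2, 0⟩),
  (-316509256, ⟨1, -2, 1, 0, 0, 2, 0⟩),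
  (-572148024, ⟨1, -5, 0, 0, 1, 1, 0⟩),
  (1777943216, ⟨1, -4, 0, 0, 1, 1, 0⟩),
  (4568712344, ⟨1, -3, 0, 0, 1, 1, 0⟩),
  (5159140560, ⟨1, -2, 0, 0, 1, 1, 0⟩),
  (-3141854912, ⟨1, -1, 0, 0, 1, 1, 0⟩),
  (-851863880, ⟨1, 0, 0, 0, 1, 1, 0⟩),
  (-217808640, ⟨1, -7, 1, 0, 2, 0, 0⟩),
  (530600280, ⟨1, -6, 1, 0, 2, 0, 0⟩),
  (1690437112, ⟨1, -5, 1, 0, 2, 0, 0⟩),
  (-160497680, ⟨1, -4, 1, 0, 2, 0, 0⟩),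
  (-471277968, ⟨1, -3, 1, 0, 2, 0, 0⟩),
  (-1416681840, ⟨1, -2, 1, 0, 2, 0, 0⟩),
  (303468536, ⟨1, -5, 0, 1, 0, 1, 0⟩),
  (-723413040, ⟨1, -4, 0, 1, 0, 1, 0⟩),
  (-1343810216, ⟨1, -3, 0, 1, 0, 1, 0⟩),
  (4702637912, ⟨1, -2, 0, 1, 0, 1, 0⟩),
  (-2784058200, ⟨1, -1, 0, 1, 0, 1, 0⟩),
  (1237820360, ⟨1, 0, 0, 1, 0, 1, 0⟩),
  (77856912, ⟨1, -7, 1, 1, 1, 0, 0⟩),
  (-218213632, ⟨1, -6, 1, 1, 1, 0, 0⟩),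
  (-311539704, ⟨1, -5, 1, 1, 1, 0, 0⟩),
  (1359431640, ⟨1, -4, 1, 1, 1, 0, 0⟩),
  (1460825184, ⟨1, -3, 1, 1, 1, 0, 0⟩),
  (-3238437944, ⟨1, -2, 1, 1, 1, 0, 0⟩),
  (139951728, ⟨1, -7, 1, 2, 0, 0, 0⟩),
  (-312386648, ⟨1, -6, 1, 2, 0, 0, 0⟩),
  (-1325869216, ⟨1, -5, 1, 2, 0, 0, 0⟩),
  (-1990132536, ⟨1, -4, 1, 2, 0, 0, 0⟩),
  (1858923248, ⟨1, -3, 1, 2, 0, 0, 0⟩),
  (-2779684488, ⟨1, -2, 1, 2, 0, 0, 0⟩),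
  (749855344, ⟨2, -5, 0, 0, 1, 0, 0⟩),
  (-1148453712, ⟨2, -4, 0, 0, 1, 0, 0⟩),
  (-8034265568, ⟨2, -3, 0, 0, 1, 0, 0⟩),
  (-85279768, ⟨2, -2, 0, 0, 1, 0, 0⟩),
  (54482249080, ⟨2, -1, 0, 0, 1, 0, 0⟩),
  (-33381542544, ⟨2, 0, 0, 0, 1, 0, 0⟩),
  (-76334928040, ⟨2, 1, 0, 0, 1, 0, 0⟩),
  (-242682776, ⟨2, -5, 0, 1, 0, 0, 0⟩),
  (-209243048, ⟨2, -4, 0, 1, 0, 0, 0⟩),
  (10775034200, ⟨2, -3, 0, 1, 0, 0, 0⟩),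
  (-27384331128, ⟨2, -2, 0, 1, 0, 0, 0⟩),
  (-25483123008, ⟨2, -1, 0, 1, 0, 0, 0⟩),
  (55712229216, ⟨2, 0, 0, 1, 0, 0, 0⟩),
  (17509912, ⟨3, -7, 0, 0, 0, 0, 1⟩),
  (-77448784, ⟨3, -5, 0, 0, 0, 0, 1⟩),
  (255338272, ⟨3, -4, 0, 0, 0, 0, 1⟩),
  (-12615008, ⟨3, -7, 0, 0, 0, 2, 0⟩),
  (61170928, ⟨3, -5, 0, 0, 0, 2, 0⟩),
  (-100179408, ⟨3, -4, 0, 0, 0, 2, 0⟩),
  (-302071784, ⟨3, -3, 0, 0, 0, 2, 0⟩),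
  (279998544, ⟨3, -2, 0, 0, 0, 2, 0⟩),
  (489250608, ⟨3, -7, 0, 0, 2, 0, 0⟩),
  (776709248, ⟨3, -6, 0, 0, 2, 0, 0⟩),
  (4569488, ⟨3, -4, 0, 0, 2, 0, 0⟩),
  (-3654752640, ⟨3, -3, 0, 0, 2, 0, 0⟩),
  (4448370416, ⟨3, -2, 0, 0, 2, 0, 0⟩),
  (6099436728, ⟨3, -1, 0, 0, 2, 0, 0⟩),
  (5172429888, ⟨3, 0, 0, 0, 2, 0, 0⟩),
  (-3724, ⟨3, 1, 0, 0, 2, 0, 0⟩),
  (174575352, ⟨3, -7, 0, 1, 1, 0, 0⟩),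
  (673960, ⟨3, -6, 0, 1, 1, 0, 0⟩),
  (-331107448, ⟨3, -5, 0, 1, 1, 0, 0⟩),
  (1131678240, ⟨3, -4, 0, 1, 1, 0, 0⟩),
  (-1363443480, ⟨3, -3, 0, 1, 1, 0, 0⟩),
  (2346129856, ⟨3, -2, 0, 1, 1, 0, 0⟩),
  (-353104696, ⟨3, -7, 0, 2, 0, 0, 0⟩),
  (-777383208, ⟨3, -6, 0, 2, 0, 0, 0⟩),
  (1605600752, ⟨3, -5, 0, 2, 0, 0, 0⟩),
  (-4664275168, ⟨3, -1, 0, 2, 0, 0, 0⟩),
  (-4023001024, ⟨3, 0, 0, 2, 0, 0, 0⟩),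
  (2940, ⟨3, 1, 0, 2, 0, 0, 0⟩),
  (79318288, ⟨5, -5, 0, 0, 1, 0, 0⟩),
  (1841326256, ⟨5, -4, 0, 0, 1, 0, 0⟩),
  (-5590570328, ⟨5, -3, 0, 0, 1, 0, 0⟩),
  (4634681520, ⟨5, -2, 0, 0, 1, 0, 0⟩),
  (-784, ⟨5, 1, 0, 0, 1, 0, 0⟩),
  (277304552, ⟨5, -5, 0, 1, 0, 0, 0⟩),
  (-767249560, ⟨5, -4, 0, 1, 0, 0, 0⟩),
  (-697558064, ⟨5, -3, 0, 1, 0, 0, 0⟩),
  (2555116536, ⟨5, -2, 0, 1, 0, 0, 0⟩),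
  (-2957223192, ⟨5, 0, 0, 1, 0, 0, 0⟩)]

/-- the polynomial of the certificate (`8 D rr ^ 9` times the pointwise expression) -/
def P : PE := lhsH 7 9 1879048192 996207968 (-6893163592) 12432515032 (-9605786960) (-2542753640) 2957223192 1299810960 0 rows

set_option maxRecDepth 100000 in
lemma rows_ok_all : (rows.all fun x => x.2.ok 7) = true := by decide +kernel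

set_option maxRecDepth 100000 in
lemma rows_e_all : (rows.all fun x => decide (0 ≤ ((9 : ℕ) : ℤ) + x.2.e - 2)) = true := by
  decide +kernel

lemma rows_e : ∀ x ∈ rows, 0 ≤ ((9 : ℕ) : ℤ) + x.2.e - 2 := fun x hx =>
  of_decide_eq_true (List.all_eq_true.1 rows_e_all x hx)

/-- all rows are admissible -/
lemma rows_ok : ∀ cT ∈ rlH 1879048192 rows, cT.2.ok 7 = true := by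
  intro cT hcT
  unfold rlH at hcT
  obtain ⟨x, hx, rfl⟩ := List.mem_map.1 hcT
  exact List.all_eq_true.1 rows_ok_all x hx

/-- the pointwise inequality from the positivity of the polynomial -/
theorem pos_of {d : R9} (hd : d 0 < 1) (h : 0 ≤ PE.ev (vh d) P) :
    0 ≤ W9 (1879048192 / 1879048192) (996207968 / 1879048192) (-6893163592 / 1879048192) (12432515032 / 1879048192) (-9605786960 / 1879048192) (-2542753640 / 1879048192) (2957223192 / 1879048192) (1299810960 / 1879048192) (0 / 1879048192) d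
      + hsum 7 (rlH 1879048192 rows) d := by
  have h1 := nonneg_of_lhsH hd 7 (K := 9) (D := 1879048192) (by norm_num) 1879048192 996207968 (-6893163592) 12432515032 (-9605786960) (-2542753640) 2957223192 1299810960 0 rows_e h
  push_cast at h1
  convert h1 using 2

end

end Vale.Agent.P224.PO.M7
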